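import Crest.Agent.X212.Deh83.Push
import Crest.Agent.X212.Ann83.Main
import Crest.Agent.X212.Cor42.Rep
import Crest.Agent.X212.Geo46.Defs

/-!
# X212 / Deh83 (helper83), part 2: Dehn's lemma from the loop theorem
-/

set_option autoImplicit false
set_option linter.unusedSectionVars false

open Set Metric Topology Filter

namespace Crest.Agent.X212.Deh83

open Crest.Agent.R096 Crest.Agent.R096.Ce_537 Crest.Agent.X212.Lad50 Crest.Agent.X212.Gp83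
open Crest.Agent.R096.Cx_609 (equivOfInjOn)
open Crest.Agent.R096.Cb_609 (isBall_real2)
open Crest.Agent.X212.Prd34 (V P up DehnStmt)
open Crest.Agent.X212.Dsc4 Crest.Agent.X212.Srf12
open Crest.Agent.X212.Lev33 (Coc Prim)

section

variable {E F : Type*} [NormedAddCommGroup E] [NormedSpace ℝ E] [NormedAddCommGroup F]
  [NormedSpace ℝ F] {S : Set E} {h : P → E}

theorem isCompact_box (u v : ℝ) : IsCompact {y : P | |y 0| ≤ 1 ∧ y 1 ∈ Icc u v} := by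
  refine (isCompact_Icc (a := (![-1, u] : P)) (b := ![1, v])).of_isClosed_subset
    ((isClosed_le (continuous_apply 0).abs continuous_const).inter (isClosed_Icc.preimage (continuous_apply 1)))
    fun y hy => ⟨fun i => ?_, fun i => ?_⟩ <;> fin_cases i
  exacts [(abs_le.1 hy.1).1, hy.2.1, (abs_le.1 hy.1).2, hy.2.2]

theorem box_sub (u v : ℝ) :
    {y : P | |y 0| ≤ 1 ∧ y 1 ∈ Icc u v} ⊆ {y | |y 0| ≤ 1 ∧ |y 1| ≤ max |u| |v|} :=
  fun _ hy => ⟨hy.1, abs_le_max_abs_abs hy.2.1 hy.2.2⟩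

theorem ann_int (hh : Ann S h) {y : P} (hy : |y 0| ≤ 1) (m : ℤ) : h ![y 0, y 1 - m] = h y :=
  (hh.fib ![y 0, y 1 - m] y hy hy).2 ⟨rfl, -m, by simp⟩

/-- maps that are PL on the cover of an annulus -/
theorem ann_pl [FiniteDimensional ℝ E] (hh : Ann S h) {g : P → F}
    (hg : ∀ R : ℝ, PLOn g {y | |y 0| ≤ 1 ∧ |y 1| ≤ R})
    (hf : ∀ y y', |y 0| ≤ 1 → |y' 0| ≤ 1 → h y = h y' → g y = g y') :
    ∃ f : E → F, PLOn f S ∧ ∀ y, |y 0| ≤ 1 → f (h y) = g y := by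
  have k : ∀ y, |y 0| ≤ 1 → g (Function.invFunOn h {y | |y 0| ≤ 1} (h y)) = g y := fun y hy =>
    hf _ _ (Function.invFunOn_mem (s := {y : P | |y 0| ≤ 1}) ⟨y, hy, rfl⟩) hy
      (Function.invFunOn_eq ⟨y, hy, rfl⟩)
  have c : ∀ u : ℝ, IsClosed (h '' {y : P | |y 0| ≤ 1 ∧ y 1 ∈ Icc u (u + 1 / 2)}) := fun u =>
    ((isCompact_box _ _).image_of_continuousOn ((hh.pl _).mono (box_sub _ _)).1).isClosed
  have p : ∀ u : ℝ, PLOn (fun z => g (Function.invFunOn h {y | |y 0| ≤ 1} z))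
      (h '' {y : P | |y 0| ≤ 1 ∧ y 1 ∈ Icc u (u + 1 / 2)}) := fun u => by
    have cv : Convex ℝ {y : P | |y 0| ≤ 1 ∧ y 1 ∈ Icc u (u + 1 / 2)} := by
      simp only [abs_le]
      exact ((convex_Icc (-1 : ℝ) 1).linear_preimage (LinearMap.proj 0 : P →ₗ[ℝ] ℝ)).inter
        ((convex_Icc u (u + 1 / 2)).linear_preimage (LinearMap.proj 1 : P →ₗ[ℝ] ℝ))
    let e := equivOfInjOn cv.finConv (isCompact_box _ _).isClosed ((hh.pl _).mono (box_sub _ _))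
      fun y hy y' hy' e => by
        obtain ⟨e0, j, hj⟩ := (hh.fib y y' hy.1 hy'.1).1 e
        have : |(j : ℝ)| < 1 := abs_lt.2 ⟨by linarith [hy.2.1, hy'.2.2], by linarith [hy.2.2, hy'.2.1]⟩
        rw [Int.abs_lt_one_iff.1 (by exact_mod_cast this : |j| < 1), Int.cast_zero, sub_eq_zero] at hj
        ext i
        fin_cases i
        exacts [e0, hj]
    refine (((hg _).mono (box_sub _ _)).comp e.pg e.mg).congr ?_
    rintro _ ⟨y, hy, rfl⟩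
    exact (k y hy.1).trans (congrArg g (e.li y hy)).symm
  refine ⟨_, ((p 0).union (p (1 / 2)) (c _) (c _)).mono ?_, k⟩
  rw [← hh.img]
  rintro _ ⟨y, hy, rfl⟩
  have h1 := Int.floor_le (y 1)
  have h2 := Int.lt_floor_add_one (y 1)
  rcases le_total (y 1 - ⌊y 1⌋) (1 / 2) with a | a
  · exact Or.inl ⟨![y 0, y 1 - ⌊y 1⌋], ⟨hy, sub_nonneg.2 h1, a.trans_eq (zero_add _).symm⟩, ann_int hh hy _⟩
  · exact Or.inr ⟨![y 0, y 1 - ⌊y 1⌋], ⟨hy, a, by show y 1 - ⌊y 1⌋ ≤ _; linarith⟩, ann_int hh hy _⟩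

/-- two parametrised annuli are equivalent -/
theorem ann_equiv [FiniteDimensional ℝ E] [FiniteDimensional ℝ F] (hh : Ann S h) {A : Set F} {g : P → F}
    (hg : Ann A g) : ∃ θ : PLEquiv S A, ∀ y, |y 0| ≤ 1 → θ.f (h y) = g y ∧ θ.g (g y) = h y := by
  obtain ⟨f, f1, f2⟩ := ann_pl hh hg.pl fun y y' a b e => (hg.fib y y' a b).2 ((hh.fib y y' a b).1 e)
  obtain ⟨f', g1, g2⟩ := ann_pl hg hh.pl fun y y' a b e => (hh.fib y y' a b).2 ((hg.fib y y' a b).1 e)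
  refine ⟨⟨f, f', f1, g1, ?_, ?_, ?_, ?_⟩, fun y hy => ⟨f2 y hy, g2 y hy⟩⟩
  · rw [← hh.img, ← hg.img]
    rintro _ ⟨y, hy, rfl⟩
    exact ⟨y, hy, (f2 y hy).symm⟩
  · rw [← hh.img, ← hg.img]
    rintro _ ⟨y, hy, rfl⟩
    exact ⟨y, hy, (g2 y hy).symm⟩
  · rw [← hh.img]
    rintro _ ⟨y, hy, rfl⟩
    rw [f2 y hy, g2 y hy]
  · rw [← hg.img]
    rintro _ ⟨y, hy, rfl⟩
    rw [g2 y hy, f2 y hy]

theorem ann_mirror (hh : Ann S h) : Ann S fun y => h ![-y 0, y 1] := by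
  refine ⟨fun R => (hh.pl R).comp (pl_vec2 (pl_neg (pl_coord 0 _)) (pl_coord 1 _)) fun y hy =>
    ⟨(abs_neg _).trans_le hy.1, hy.2⟩, hh.img ▸ Subset.antisymm ?_ ?_, fun y y' a b =>
    (hh.fib ![-y 0, y 1] ![-y' 0, y' 1] ((abs_neg _).trans_le a) ((abs_neg _).trans_le b)).trans
      (and_congr_left' neg_inj)⟩
  · rintro _ ⟨y, hy, rfl⟩
    exact ⟨![-y 0, y 1], (abs_neg (y 0)).trans_le hy, rfl⟩
  · rintro _ ⟨y, hy, rfl⟩
    exact ⟨![-y 0, y 1], (abs_neg (y 0)).trans_le hy, congrArg h (by ext i; fin_cases i <;> simp)⟩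

/-- the generator of the first cohomology of an annulus -/
theorem exists_coc (hh : Ann S h) : ∃ c : E → E → Multiplicative ℤ, Coc S c ∧
    ∀ t : ℝ, |t| ≤ 1 → ¬ ∃ b, Prim (h '' {y | y 0 = t}) c b := by
  let ι : E → P := Function.invFunOn h {y | |y 0| ≤ 1}
  have i1 : ∀ x ∈ S, |ι x 0| ≤ 1 ∧ h (ι x) = x := fun x hx =>
    ⟨Function.invFunOn_mem (s := {y : P | |y 0| ≤ 1}) (hh.img.ge hx), Function.invFunOn_eq (hh.img.ge hx)⟩
  have near : ∀ x ∈ S, ∀ᶠ y in 𝓝[S] x, ∃ m : ℤ, ι y 1 - ι x 1 - m ∈ Ico (-(1 / 4) : ℝ) (1 / 4) := by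
    intro x hx
    have c := ((isCompact_box (ι x 1 + 1 / 4) (ι x 1 + 3 / 4)).image_of_continuousOn
      ((hh.pl _).mono (box_sub _ _)).1).isClosed
    filter_upwards [self_mem_nhdsWithin, mem_nhdsWithin_of_mem_nhds (c.isOpen_compl.mem_nhds (x := x) (by
      rintro ⟨y, hy, e⟩
      obtain ⟨-, j, hj⟩ := (hh.fib _ _ hy.1 (i1 x hx).1).1 (e.trans (i1 x hx).2.symm)
      have h1 : (0 : ℝ) < j := by linarith [hy.2.1]
      have h2 : (j : ℝ) < 1 := by linarith [hy.2.2]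
      have h3 : 0 < j := by exact_mod_cast h1
      have h4 : j < 1 := by exact_mod_cast h2
      omega))] with y hy h'
    have h1 := Int.floor_le (ι y 1 - ι x 1 + 1 / 4)
    have h2 := Int.lt_floor_add_one (ι y 1 - ι x 1 + 1 / 4)
    refine ⟨⌊ι y 1 - ι x 1 + 1 / 4⌋, by linarith, lt_of_not_ge fun a => h' ⟨![ι y 0, ι y 1 - ⌊ι y 1 - ι x 1 + 1 / 4⌋], ⟨(i1 y hy).1, ?_, ?_⟩,
      (ann_int hh (i1 y hy).1 ⌊ι y 1 - ι x 1 + 1 / 4⌋).trans (i1 y hy).2⟩⟩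
    · show _ ≤ ι y 1 - _
      linarith
    · show ι y 1 - _ ≤ _
      linarith
  refine ⟨fun x y => .ofAdd ⌊ι y 1 - ι x 1 + 1 / 2⌋, fun x hx => ?_, fun t ht ⟨b, hb⟩ => ?_⟩
  · filter_upwards [self_mem_nhdsWithin, near x hx] with y hy ⟨m, hm⟩
    filter_upwards [near y hy] with z ⟨n, hn⟩
    rw [← ofAdd_add, (Int.floor_eq_iff (z := m + n)).2 ⟨by push_cast; linarith [hm.1, hn.1],
        by push_cast; linarith [hm.2, hn.2]⟩,
      (Int.floor_eq_iff (z := m)).2 ⟨by linarith [hm.1], by linarith [hm.2]⟩,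
      (Int.floor_eq_iff (z := n)).2 ⟨by linarith [hn.1], by linarith [hn.2]⟩]
  · have l := Ann83.ann_loop hh ht
    have m : ∀ s, h ![t, s] ∈ S := fun s => hh.img.le ⟨_, ht, rfl⟩
    choose n hn using fun s => ((hh.fib _ ![t, s] (i1 _ (m s)).1 ht).1 (i1 _ (m s)).2).2
    replace hn : ∀ s, ι (h ![t, s]) 1 = s + n s := fun s => (sub_eq_iff_eq_add'.1 (hn s))
    have p : Prim univ (fun s s' => Multiplicative.ofAdd ⌊ι (h ![t, s']) 1 - ι (h ![t, s]) 1 + 1 / 2⌋)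
        fun s => .ofAdd (n s) := fun s _ => by
      filter_upwards [mem_nhdsWithin_of_mem_nhds
        (Ioo_mem_nhds (a := s - 1 / 2) (b := s + 1 / 2) (x := s) (by linarith) (by linarith))] with s' hs
      rw [← ofAdd_add, hn, hn, (Int.floor_eq_iff (z := n s' - n s)).2
        ⟨by push_cast; linarith [hs.1], by push_cast; linarith [hs.2]⟩, add_sub_cancel]
    have e : h ![t, 1] = h ![t, 0] := (l.fib 1 0).2 ⟨1, by simp⟩
    have q := (hb.comp (Ann83.continuous_of_pl l.pl).continuousOn fun s _ => ⟨_, rfl, rfl⟩).uniq p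
      isPreconnected_univ (mem_univ 0) (mem_univ 1)
    simp only [e, inv_mul_cancel_right, EmbeddingLike.apply_eq_iff_eq] at q
    have h1 := hn 1
    rw [e, hn, q] at h1
    linarith

end

/-- a planar model of the annulus; the level `a` is the unit square -/
theorem model (a : ℝ) : ∃ (h : P → ℝ × ℝ) (ρ : ℝ → ℝ), Ann (h '' {y | |y 0| ≤ 1}) h ∧ StrictAnti ρ ∧
    ρ a = 1 ∧ (∀ y, ‖h y‖ = ρ (y 0)) ∧ ∀ z : ℝ × ℝ, a ≤ 1 → ρ 1 ≤ ‖z‖ → ‖z‖ ≤ 1 → ∃ y, h y = z := by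
  have r0 : rho (a - a) = 1 := by rw [rho_of_le (by simp)]; ring
  have n : ∀ w : P, ‖(w 0, w 1)‖ = ‖w‖ := fun w =>
    (norm_vec2 _ _).symm.trans (congrArg norm (by ext i; fin_cases i <;> rfl))
  refine ⟨fun y => (pol ![y 1, a - y 0] 0, pol ![y 1, a - y 0] 1), fun t => rho (a - t),
    ⟨fun R => ?_, rfl, fun y y' _ _ => ?_⟩, fun s t h => rho_strictMono (by linarith), r0,
    fun y => (n _).trans (norm_pol _), fun z ha h1 h2 => ?_⟩
  · have p := plOn_of_locPL (locPL_comp locPL_pol (locPL_of_plOn (pl_vec2 (pl_coord 1 _)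
      (pl_sub (plOn_const a _) (pl_coord 0 _))) univ) (mapsTo_univ _ _)) (isCompact_box (-R) R) (subset_univ _)
    exact (pl_prod (pl_apply p 0) (pl_apply p 1)).mono fun y hy => ⟨hy.1, abs_le.1 hy.2⟩
  · rw [and_comm, ← sub_right_inj (a := a)]
    refine Iff.trans ⟨fun e => ?_, fun e => by rw [e]⟩ (pol_fib ![y 1, a - y 0] ![y' 1, a - y' 0])
    ext i
    fin_cases i
    exacts [congrArg Prod.fst e, congrArg Prod.snd e]
  · obtain ⟨t, -, e⟩ := intermediate_value_Icc (a := a - 1) (b := a - a) (by linarith)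
      continuous_rho.continuousOn ⟨h1, h2.trans_eq r0.symm⟩
    obtain ⟨s, hs⟩ := pol_sur t ![z.1, z.2] ((norm_vec2 _ _).trans e.symm)
    exact ⟨![a - t, s], by simp [hs]⟩

theorem sub_ball {D J : Set (ℝ × ℝ)} (hD : IsCompact D) (hU : IsOpen (D \ J)) (hJ : J ⊆ ball 0 1) :
    D ⊆ ball 0 1 := fun z hz => by
  obtain ⟨w, hw, hm⟩ := hD.exists_isMaxOn ⟨z, hz⟩ continuous_norm.continuousOn
  refine mem_ball_zero_iff.2 ((hm hz).trans_lt (lt_of_not_ge fun h => ?_))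
  have h1 : ∀ᶠ t in 𝓝 (1 : ℝ), t • w ∈ D \ J := (by fun_prop : Continuous fun t : ℝ => t • w).continuousAt
    (hU.mem_nhds (by simpa using ⟨hw, fun h' => not_lt.2 h (mem_ball_zero_iff.1 (hJ h'))⟩))
  obtain ⟨t, h2, h3⟩ := ((h1.filter_mono nhdsWithin_le_nhds).and (self_mem_nhdsWithin (s := Ioi 1))).exists
  have h4 : ‖t • w‖ ≤ ‖w‖ := hm h2.1
  rw [norm_smul, Real.norm_of_nonneg (zero_le_one.trans h3.le)] at h4
  nlinarith [show 1 < t from h3]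

/-- an essential disc with boundary above the level `a` gives a disc bounded by the level `a` -/
theorem add {E : Type} [NormedAddCommGroup E] [NormedSpace ℝ E] [FiniteDimensional ℝ E]
    {M dM A D : Set E} {g : P → E} {Γ : Type} [Group Γ] {c : E → E → Γ} {a : ℝ}
    (hM : MfE M dM) (hg : Ann A g) (hA : A ⊆ dM) (ho : ROpen dM (g '' {y | |y 0| < 1})) (ha : |a| < 1)
    (hc : Coc (g '' {y | |y 0| < 1}) c) (hD : Ess M dM (g '' {y | a < y 0 ∧ y 0 < 1}) c D) :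
    ∃ D', IsBall 2 D' (g '' {y | y 0 = a}) ∧ D' ⊆ M ∧ D' ∩ dM = g '' {y | y 0 = a} := by
  classical
  obtain ⟨h, ρ, m1, m2, m3, m4, m5⟩ := model a
  obtain ⟨θ, hθ⟩ := ann_equiv m1 hg
  obtain ⟨a1, a2⟩ := abs_lt.1 ha
  have i1 : ∀ z, ρ 1 < ‖z‖ → ‖z‖ ≤ 1 → ∃ y, |y 0| < 1 ∧ h y = z := fun z h1 h2 => by
    obtain ⟨y, rfl⟩ := m5 z a2.le h1.le h2
    rw [m4] at h1 h2
    exact ⟨y, abs_lt.2 ⟨a1.trans_le (m2.le_iff_ge.1 (h2.trans_eq m3.symm)), m2.lt_iff_gt.1 h1⟩, rfl⟩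
  have i2 : ∀ z, ρ 1 < ‖z‖ → ‖z‖ ≤ 1 → z ∈ h '' {y | |y 0| ≤ 1} ∧ θ.f z ∈ g '' {y | |y 0| < 1} :=
    fun z h1 h2 => by
      obtain ⟨y, hy, rfl⟩ := i1 z h1 h2
      exact ⟨⟨y, hy.le, rfl⟩, y, hy, (hθ y hy.le).1.symm⟩
  have FA : g '' {y | |y 0| < 1} ⊆ A := hg.img ▸ image_mono fun y (hy : |y 0| < 1) => hy.le
  obtain ⟨e, he, he'⟩ := isBall_real2.exists_equiv hD.1
  have sQ : sphere (0 : ℝ × ℝ) 1 ⊆ closedBall 0 1 := sphere_subset_closedBall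
  have j1 : ∀ z ∈ sphere (0 : ℝ × ℝ) 1, e.f z ∈ A ∧ ρ 1 < ‖θ.g (e.f z)‖ ∧ ‖θ.g (e.f z)‖ < 1 := fun z hz => by
    obtain ⟨y, hy, e1⟩ := hD.2.2.1 (he.le ⟨z, hz, rfl⟩)
    have : |y 0| < 1 := abs_lt.2 ⟨a1.trans hy.1, hy.2⟩
    rw [← e1, (hθ y this.le).2, m4]
    exact ⟨FA ⟨y, this, rfl⟩, m2 hy.2, (m2 hy.1).trans_eq m3⟩
  obtain ⟨Δ, Φ, d1, d2, d3⟩ := Cor42.exists_disc (θ.pg.comp (e.pf.mono sQ) fun z hz => (j1 z hz).1)
    fun z hz z' hz' e' => e.injOn (sQ hz) (sQ hz') (θ.symm.injOn (j1 z hz).1 (j1 z' hz').1 e')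
  set J := (fun z => θ.g (e.f z)) '' sphere 0 1
  have d4 := sub_ball d2.isCompact d3 (by rintro _ ⟨z, hz, rfl⟩; exact mem_ball_zero_iff.2 (j1 z hz).2.2)
  rcases Cor42.sides d2.isClosed d3 (convex_closedBall 0 (ρ 1)).isPreconnected (disjoint_left.2 (by
    rintro _ h1 ⟨z, hz, rfl⟩
    exact not_lt.2 (mem_closedBall_zero_iff.1 h1) (j1 z hz).2.1)) with d5 | d5
  swap
  · have k := fun z (hz : z ∈ closedBall (0 : ℝ × ℝ) 1) => i2 (Φ.f z)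
      (lt_of_not_ge fun h1 => d5 (mem_closedBall_zero_iff.2 h1) (Φ.mf hz))
      (mem_ball_zero_iff.1 (d4 (Φ.mf hz))).le
    obtain ⟨b, hb⟩ := (hc.comp (θ.pf.comp Φ.pf fun z hz => (k z hz).1).1 fun z hz => (k z hz).2).prim_convex
      (convex_closedBall _ _)
    have mg : MapsTo e.g (D ∩ dM) (sphere 0 1) := fun x hx => he'.le ⟨x, hx, rfl⟩
    have k2 : ∀ x ∈ D ∩ dM, θ.f (Φ.f (e.g x)) = x := fun x hx => by
      rw [d1 (mg hx), θ.ri _ (j1 _ (mg hx)).1, e.ri x hx.1]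
    refine absurd ⟨fun x => b (e.g x), fun x hx => ?_⟩ hD.2.2.2
    filter_upwards [hb.comp (e.pg.1.mono inter_subset_left) (fun x hx => sQ (mg hx)) x hx,
      self_mem_nhdsWithin] with y h1 hy
    rwa [k2 x hx, k2 y hy] at h1
  set R := closedBall (0 : ℝ × ℝ) 1 \ (Δ \ J)
  have cR : IsCompact R := (isCompact_closedBall _ _).diff d3
  have r1 := fun z (hz : z ∈ R) => i2 z (lt_of_not_ge fun h1 => hz.2 (d5 (mem_closedBall_zero_iff.2 h1)))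
    (mem_closedBall_zero_iff.1 hz.1)
  have r2 : ∀ z ∈ closedBall (0 : ℝ × ℝ) 1, z ∉ R → z ∈ Δ := fun z hz h =>
    by_contra fun h' => h ⟨hz, fun h'' => h' h''.1⟩
  let φ : ℝ × ℝ → E := fun z => if z ∈ Δ then e.f (Φ.g z) else θ.f z
  have p1 : EqOn φ (fun z => e.f (Φ.g z)) Δ := fun z hz => if_pos hz
  have p2 : EqOn φ θ.f R := fun z hz => by
    by_cases h : z ∈ Δ
    · obtain ⟨w, hw, rfl⟩ : z ∈ J := by_contra fun h' => hz.2 ⟨h, h'⟩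
      rw [p1 h, θ.ri _ (j1 w hw).1]
      exact congrArg e.f ((congrArg Φ.g (d1 hw).symm).trans (Φ.li w (sQ hw)))
    · exact if_neg h
  have p3 : PLOn φ (closedBall 0 1) := (((e.pf.comp Φ.pg Φ.mg).congr p1).union
    ((θ.pf.mono fun z hz => (r1 z hz).1).congr p2) d2.isClosed cR.isClosed).mono fun z hz =>
      or_iff_not_imp_right.2 (r2 z hz)
  have p4 : ∀ z ∈ R, φ z ∈ dM := fun z hz => p2 hz ▸ hA (FA (r1 z hz).2)
  have p5 : ∀ z ∈ closedBall (0 : ℝ × ℝ) 1, φ z ∈ dM → z ∈ R := fun z hz h => ⟨hz, fun h' => by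
    rw [p1 h'.1] at h
    have : Φ.g z ∈ sphere (0 : ℝ × ℝ) 1 :=
      he'.le ⟨_, ⟨e.mf (Φ.mg h'.1), h⟩, e.li _ (Φ.mg h'.1)⟩
    exact h'.2 ⟨_, this, (d1 this).symm.trans (Φ.ri z h'.1)⟩⟩
  have p6 : InjOn φ (closedBall 0 1) := fun z hz z' hz' e' => by
    by_cases h : φ z ∈ dM
    · have h1 := p5 z hz h
      have h2 := p5 z' hz' (e' ▸ h)
      exact θ.injOn (r1 z h1).1 (r1 z' h2).1 (by rwa [← p2 h1, ← p2 h2])
    · have h1 := r2 z hz fun h' => h (p4 z h')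
      have h2 := r2 z' hz' fun h' => h (e' ▸ p4 z' h')
      exact (Φ.symm.trans e).injOn h1 h2 (((p1 h1).symm.trans e').trans (p1 h2))
  have p7 : MapsTo φ (closedBall 0 1) M := fun z hz => by
    by_cases h : z ∈ R
    · exact hM.1 (p4 z h)
    · rw [p1 (r2 z hz h)]
      exact hD.2.1 (e.mf (Φ.mg (r2 z hz h)))
  obtain ⟨Ψ, q1, q2⟩ := push (δ := fun x => 1 - ‖θ.g x‖) hM
    (cR.image_of_continuousOn (p3.1.mono sdiff_subset)) (by rintro _ ⟨z, hz, rfl⟩; exact p4 z hz)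
    (pl_sub (plOn_const 1 _) (pl_max (pl_abs (pl_fst θ.pg)) (pl_abs (pl_snd θ.pg)))) (by
      rintro _ ⟨z, hz, rfl⟩
      exact mem_of_superset (ro_nhds ho (p2 hz ▸ (r1 z hz).2)) FA)
  have s1 : ∀ z ∈ R, ‖θ.g (φ z)‖ = ‖z‖ := fun z hz => by rw [p2 hz, θ.li z (r1 z hz).1]
  have s2 : sphere (0 : ℝ × ℝ) 1 ⊆ R := fun z hz =>
    ⟨sQ hz, fun h => (mem_ball_zero_iff.1 (d4 h.1)).ne (mem_sphere_zero_iff_norm.1 hz)⟩
  have s3 : ∀ z ∈ sphere (0 : ℝ × ℝ) 1, Ψ (φ z) = θ.f z := fun z hz =>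
    (q1.fix _ (p4 z (s2 hz)) (by rw [s1 z (s2 hz), mem_sphere_zero_iff_norm.1 hz, sub_self])).trans
      (p2 (s2 hz))
  have s4 : (fun z => Ψ (φ z)) '' sphere 0 1 = g '' {y | y 0 = a} := by
    rw [image_congr s3]
    refine Subset.antisymm ?_ ?_
    · rintro _ ⟨z, hz, rfl⟩
      obtain ⟨y, hy, rfl⟩ := (r1 z (s2 hz)).1
      exact ⟨y, m2.injective (((m4 y).symm.trans (mem_sphere_zero_iff_norm.1 hz)).trans m3.symm),
        (hθ y hy).1.symm⟩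
    · rintro _ ⟨y, rfl, rfl⟩
      exact ⟨h y, mem_sphere_zero_iff_norm.2 ((m4 y).trans m3), (hθ y ha.le).1⟩
  refine ⟨_, s4 ▸ isBall_real2.map (equivOfInjOn (convex_closedBall _ _).finConv isClosed_closedBall
    (q1.pl.comp p3 p7) (q1.inj.comp p6 p7)), ?_, s4 ▸ Subset.antisymm ?_ ?_⟩
  · rintro _ ⟨z, hz, rfl⟩
    exact q1.maps (p7 hz)
  · rintro _ ⟨⟨z, hz, rfl⟩, h⟩
    have h1 := p5 z hz (q1.bd _ (p7 hz) h ▸ h)
    refine ⟨z, mem_sphere_zero_iff_norm.2 ((mem_closedBall_zero_iff.1 hz).antisymm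
      (le_of_not_gt fun h2 => q2 _ ⟨z, h1, rfl⟩ ?_ h)), rfl⟩
    rwa [s1 z h1, sub_pos]
  · rintro _ ⟨z, hz, rfl⟩
    exact ⟨⟨z, sQ hz, rfl⟩, by simp only [s3 z hz, ← p2 (s2 hz), p4 z (s2 hz)]⟩

theorem loop_of_circ {E : Type*} [NormedAddCommGroup E] [NormedSpace ℝ E] {G : Set E}
    (γ : PLEquiv (sph 2) G) : Loop G fun s => γ.f (pol ![s, 0]) := by
  have r0 : rho 0 = 1 := by rw [rho_of_le (by simp)]; ring
  have m : ∀ s, pol ![s, 0] ∈ sph 2 := fun s => mem_sphere_zero_iff_norm.2 ((norm_pol _).trans r0)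
  refine ⟨fun R => γ.pf.comp (plOn_of_locPL (locPL_comp locPL_pol (locPL_of_plOn (pl_vec2 (plOn_id _)
    (plOn_const 0 _)) univ) (mapsTo_univ _ _)) isCompact_Icc (subset_univ _)) fun s _ => m s,
    Subset.antisymm (by rintro _ ⟨s, rfl⟩; exact γ.mf (m s)) fun x hx => ?_, fun s t =>
    (γ.injOn.eq_iff (m s) (m t)).trans ((pol_fib _ _).trans (and_iff_left rfl))⟩
  obtain ⟨s, hs⟩ := pol_sur 0 _ ((mem_sphere_zero_iff_norm.1 (γ.mg hx)).trans r0.symm)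
  exact ⟨s, by simp only [hs, γ.ri x hx]⟩

/-- **DEHN** -/
theorem dehn (hL : Tw9.LTc) (hA : Geo46.AnbStmt) : DehnStmt := by
  intro M dM G γ f hM hG f1 f2 f3
  have l := loop_of_circ γ
  obtain ⟨A, g, g1, g2, g3, g4⟩ := hA M dM G _ hM hG l
  obtain ⟨c, c1, c2⟩ := exists_coc g1
  have hM' := Tw9.mfE_of_mf hM
  have eG : g '' {y | y 0 = 0} = G := by
    rw [← (Ann83.ann_loop g1 (c := 0) (by simp)).img, funext g3, l.img]
  have FA : g '' {y | |y 0| < 1} ⊆ A := g1.img ▸ image_mono fun y (hy : |y 0| < 1) => hy.le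
  obtain ⟨D, d1, d2, d3, d4⟩ := hL _ M dM _ c f hM g4 (c1.mono FA) f1 f2
    (fun x hx => image_mono (fun (y : P) (hy : y 0 = 0) => by simp [hy]) (eG.ge (f3 hx ▸ γ.mf hx)))
    fun ⟨b, hb⟩ => c2 0 (by simp) ⟨_, fun x hx => by
      have k : ∀ x ∈ G, f (γ.g x) = x := fun x hx => (f3 (γ.mg hx)).trans (γ.ri x hx)
      rw [eG] at hx ⊢
      filter_upwards [hb.comp γ.pg.1 γ.mg x hx, self_mem_nhdsWithin] with y h1 hy
      rwa [k x hx, k y hy] at h1⟩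
  obtain ⟨τ, t1, t2⟩ := ann_pl g1 (g := fun y => y 0) (fun _ => pl_coord 0 _)
    fun y y' a b e => ((g1.fib y y' a b).1 e).1
  obtain ⟨a, ha, h1⟩ := d1.isCompact_bdry.exists_forall_le' (t1.1.mono (d3.trans FA)) (a := -1) (by
    intro x hx
    obtain ⟨y, hy, rfl⟩ := d3 hx
    exact t2 y (le_of_lt hy) ▸ (abs_lt.1 hy).1)
  have hb := min_le_left a 0
  have hb' := min_le_right a 0
  have hb'' := lt_min ha neg_one_lt_zero
  obtain ⟨D', e1, e2, e3⟩ := add (a := (min a 0 - 1) / 2) hM' g1 g2 g4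
    (abs_lt.2 ⟨by linarith, by linarith⟩) (c1.mono FA) ⟨d1, d2, fun x hx => by
      obtain ⟨y, hy, rfl⟩ := d3 hx
      have := h1 _ hx
      rw [t2 y (le_of_lt hy)] at this
      exact ⟨y, ⟨by linarith, (abs_lt.1 hy).2⟩, rfl⟩, d4⟩
  have k : ∀ s : Set ℝ, (fun y : P => g ![-y 0, y 1]) '' {y | -y 0 ∈ s} = g '' {y | y 0 ∈ s} := fun s =>
    Subset.antisymm (by rintro _ ⟨y, hy, rfl⟩; exact ⟨_, hy, rfl⟩) (by
      rintro _ ⟨y, hy, rfl⟩
      exact ⟨![-y 0, y 1], by simpa using hy, congrArg g (by ext i; fin_cases i <;> simp)⟩)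
  have k1 : (fun y : P => g ![-y 0, y 1]) '' {y | |y 0| < 1} = g '' {y | |y 0| < 1} := by
    simpa using k {t | |t| < 1}
  have k2 : (fun y : P => g ![-y 0, y 1]) '' {y | y 0 = 0} = G := by simpa [eG] using k {0}
  exact k2 ▸ add (a := 0) hM' (ann_mirror g1) g2 (k1 ▸ g4) (by simp) (k1 ▸ c1.mono FA) (D := D')
    ⟨e3 ▸ e1, e2, e3 ▸ by
      rintro _ ⟨y, hy : y 0 = _, rfl⟩
      exact ⟨![-y 0, y 1], ⟨show 0 < -y 0 by linarith, show -y 0 < 1 by linarith⟩,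
        congrArg g (by ext i; fin_cases i <;> simp)⟩,
      e3 ▸ c2 _ (abs_le.2 ⟨by linarith, by linarith⟩)⟩

end Crest.Agent.X212.Deh83
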