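import Crest.Agent.X212.Gp83.B
import Crest.Agent.X212.Tw9.Ch
import Crest.Agent.X212.Lad50.Pol

/-!
# X212 / Deh83 (helper83), part 1: pushing a part of the boundary into the interior
-/

set_option autoImplicit false
set_option linter.unusedSectionVars false

open Set Metric Topology Filter

namespace Crest.Agent.X212.Deh83

open Crest.Agent.R096 Crest.Agent.R096.Ce_537 Crest.Agent.X212.Lad50 Crest.Agent.X212.Gp83
open Crest.Agent.X212.Prd34 (V up)
open Crest.Agent.X212.Dsc4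

variable {E : Type} [NormedAddCommGroup E] [NormedSpace ℝ E] {W dW A K : Set E} {δ : E → ℝ}

/-- an injective PL self-map that moves boundary points only into the interior -/
structure Pu (W dW : Set E) (δ : E → ℝ) (Φ : E → E) : Prop where
  pl : PLOn Φ W
  inj : InjOn Φ W
  maps : MapsTo Φ W W
  bd : ∀ x ∈ W, Φ x ∈ dW → Φ x = x
  fix : ∀ x ∈ dW, δ x ≤ 0 → Φ x = x

theorem Pu.comp {Φ Ψ : E → E} (h : Pu W dW δ Φ) (h' : Pu W dW δ Ψ) : Pu W dW δ fun x => Φ (Ψ x) :=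
  ⟨h.pl.comp h'.pl h'.maps, h.inj.comp h'.inj h'.maps, h.maps.comp h'.maps, fun x hx e => by
    have a := h.bd _ (h'.maps hx) e
    exact a.trans (h'.bd x hx (a ▸ e)), fun x hx e => by rw [h'.fix x hx e, h.fix x hx e]⟩

theorem push_loc {x : E} (k₀ : Ch W dW) (h₀ : x ∈ k₀.O) (hx : x ∈ dW) (hδ : PLOn δ A)
    (hA : A ∈ 𝓝[dW] x) :
    ∃ Φ, Pu W dW δ Φ ∧ ∀ᶠ y in 𝓝[W] x, y ∈ dW → 0 < δ y → Φ y ∉ dW := by
  classical
  obtain ⟨k, a1, a2, -⟩ := exists_restr k₀ h₀
    (mem_nhdsWithin_of_mem_nhds (eventually_nhdsWithin_iff.1 hA))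
  set z := k.e.f x
  have z2 : z 2 = 0 := (k.bd x a1).1 hx
  obtain ⟨r, hr, hB : closedBall z r ∩ up ⊆ k.O'⟩ :=
    (nhdsWithin_hasBasis nhds_basis_closedBall up).mem_iff.1 (ro_nhds k.opn' (k.e.mf a1))
  let π : V → V := fun w => ![z 0 + clp r (w 0 - z 0), z 1 + clp r (w 1 - z 1), 0]
  have c1 : ∀ t, |clp r t| ≤ r := fun t =>
    abs_le.2 ⟨le_max_left _ _, max_le (by linarith) (min_le_left _ _)⟩
  have c2 : ∀ t, |t| ≤ r → clp r t = t := fun t ht => by
    rw [clp, min_eq_right (abs_le.1 ht).2, max_eq_right (abs_le.1 ht).1]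
  have c3 : ∀ i, PLOn (fun w : V => z i + clp r (w i - z i)) univ := fun i =>
    pl_add (plOn_const _ _) (pl_max (plOn_const _ _) (pl_min (plOn_const _ _)
      (pl_sub (pl_coord i _) (plOn_const _ _))))
  have p1 : ∀ w, π w ∈ k.O' := fun w => hB ⟨by
    rw [mem_closedBall_iff_norm, pi_norm_le_iff_of_nonneg hr.le]
    intro i
    fin_cases i <;> simp [π, c1, z2, hr.le], le_refl (0 : ℝ)⟩
  have p2 : ∀ w, k.e.g (π w) ∈ A := fun w =>
    (a2 (k.e.mg (p1 w))).2 ((k.bd _ (k.e.mg (p1 w))).2 (by rw [k.e.ri _ (p1 w)]; rfl))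
  have p3 : ∀ w ∈ closedBall z r, w 2 = 0 → π w = w := fun w hw e => by
    have : ∀ i, clp r (w i - z i) = w i - z i := fun i =>
      c2 _ ((norm_le_pi_norm (w - z) i).trans (mem_closedBall_iff_norm.1 hw))
    ext i
    fin_cases i
    · simp [π, this]
    · simp [π, this]
    · exact e.symm
  let l : V → ℝ := fun w => max 0 (min (δ (k.e.g (π w))) (2⁻¹ * (r - ‖w - z‖)))
  let e2 : V := Pi.single 2 1
  have n2 : ‖e2‖ = 1 := by simp [e2, Pi.norm_single]
  let φ : V → V := fun w => w + l w • e2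
  have l0 : ∀ w, 0 ≤ l w := fun w => le_max_left _ _
  have l1 : ∀ w ∉ closedBall z r, φ w = w := fun w hw => by
    rw [mem_closedBall_iff_norm, not_le] at hw
    have : l w = 0 := max_eq_left ((min_le_right _ _).trans (by linarith))
    simp [φ, this]
  have f2 : ∀ w, φ w 2 = w 2 + l w := fun w => by simp [φ, e2]
  have f1 : PLOn φ univ := pl_add (plOn_id _) (pl_smul_const (pl_max (plOn_const _ _) (pl_min
    (hδ.comp (k.e.pg.comp (pl_vec3 (c3 0) (c3 1) (plOn_const _ _)) fun w _ => p1 w) fun w _ => p2 w)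
    (pl_mul _ (pl_sub (plOn_const _ _) (pl_norm (pl_sub (plOn_id _) (plOn_const _ _))))))) _)
  have f3 : MapsTo φ k.O' k.O' := fun w hw => by
    by_cases h : w ∈ closedBall z r
    · refine hB ⟨?_, (f2 w).ge.trans' (add_nonneg (ro_sub k.opn' hw) (l0 w))⟩
      rw [mem_closedBall_iff_norm] at h ⊢
      have : l w ≤ 2⁻¹ * (r - ‖w - z‖) := max_le (by linarith) (min_le_right _ _)
      rw [add_sub_right_comm]
      refine (norm_add_le _ _).trans ?_
      rw [norm_smul, n2, Real.norm_of_nonneg (l0 w)]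
      linarith
    · rwa [l1 w h]
  have f4 : Function.Injective φ := fun w w' e => by
    have e0 : w 0 = w' 0 := by simpa [φ, e2] using congrFun e 0
    have e1 : w 1 = w' 1 := by simpa [φ, e2] using congrFun e 1
    have e3 : w - w' = (l w' - l w) • e2 := by
      rw [sub_smul, sub_eq_sub_iff_add_eq_add, add_comm _ w']
      exact e
    have e4 : |l w' - l w| ≤ 2⁻¹ * ‖w - w'‖ := by
      refine (abs_max_sub_max_le_max _ _ _ _).trans (max_le (by simp)
        ((abs_min_sub_min_le_max _ _ _ _).trans (max_le (by simp [π, e0, e1]) ?_)))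
      rw [← mul_sub, abs_mul, abs_of_pos (by norm_num), sub_sub_sub_cancel_left]
      exact mul_le_mul_of_nonneg_left
        ((abs_norm_sub_norm_le _ _).trans_eq (by rw [sub_sub_sub_cancel_right])) (by norm_num)
    have e5 := congrArg norm e3
    rw [norm_smul, n2, mul_one, Real.norm_eq_abs] at e5
    exact sub_eq_zero.1 (norm_le_zero_iff.1 (by linarith))
  have cB : IsCompact (closedBall z r ∩ up) := (isCompact_closedBall _ _).inter_right
    (isClosed_le continuous_const (continuous_apply 2))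
  have m : ∀ y ∈ k.O, k.e.g (φ (k.e.f y)) ∈ k.O := fun y hy => k.e.mg (f3 (k.e.mf hy))
  have b : ∀ y ∈ k.O, k.e.g (φ (k.e.f y)) ∈ dW ↔ k.e.f y 2 + l (k.e.f y) = 0 := fun y hy => by
    rw [k.bd _ (m y hy), k.e.ri _ (f3 (k.e.mf hy)), f2]
  have i : ∀ y ∈ k.O, l (k.e.f y) = 0 → k.e.g (φ (k.e.f y)) = y := fun y hy e => by
    simp [φ, e, k.e.li y hy]
  refine ⟨fun y => if y ∈ k.O then k.e.g (φ (k.e.f y)) else y, ⟨pl_if k.opn
    (cB.image_of_continuousOn (k.e.pg.1.mono hB)).isClosed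
    (by rintro _ ⟨y, hy, rfl⟩; exact k.e.mg (hB hy))
    (k.e.pg.comp (f1.comp k.e.pf (mapsTo_univ _ _)) (f3.comp k.e.mf)) (plOn_id W)
    (fun y hy => if_pos hy) fun y _ hy => ?_, fun y _ y' _ e => ?_, fun y hy => ?_, fun y _ e => ?_,
    fun y hy e => ?_⟩, ?_⟩
  · split_ifs with h
    · rw [l1 _ fun h' => hy ⟨_, ⟨h', ro_sub k.opn' (k.e.mf h)⟩, k.e.li y h⟩, k.e.li y h]
    · rfl
  · by_cases h : y ∈ k.O <;> by_cases h' : y' ∈ k.O <;> simp only [h, h', if_true, if_false] at e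
    · exact k.e.injOn h h' (f4 (k.e.symm.injOn (f3 (k.e.mf h)) (f3 (k.e.mf h')) e))
    · exact absurd (e ▸ m y h) h'
    · exact absurd (e ▸ m y' h') h
    · exact e
  · by_cases h : y ∈ k.O
    · simpa only [if_pos h] using ro_sub k.opn (m y h)
    · simpa only [if_neg h] using hy
  · split_ifs at e ⊢ with h
    · have : 0 ≤ k.e.f y 2 := ro_sub k.opn' (k.e.mf h)
      exact i y h (by linarith [(b y h).1 e, l0 (k.e.f y)])
    · rfl
  · split_ifs with h
    · by_cases h' : k.e.f y ∈ closedBall z r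
      · refine i y h (max_eq_left ((min_le_left _ _).trans ?_))
        rwa [p3 _ h' ((k.bd y h).1 hy), k.e.li y h]
      · rw [l1 _ h', k.e.li y h]
    · rfl
  · filter_upwards [ro_nhds (ro_pre k.opn k.e.pf.1 isOpen_ball) ⟨a1, mem_ball_self hr⟩] with y h hy e
    have h2 := (k.bd y h.1).1 hy
    rw [if_pos h.1, b y h.1, h2, zero_add]
    refine (lt_max_of_lt_right (lt_min ?_ ?_)).ne'
    · rwa [p3 _ (ball_subset_closedBall h.2) h2, k.e.li y h.1]
    · linarith [mem_ball_iff_norm.1 h.2]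

/-- **pushing** the part `δ > 0` of a compact subset of the boundary into the interior -/
theorem push (hW : MfE W dW) (hK : IsCompact K) (hKd : K ⊆ dW) (hδ : PLOn δ A)
    (hA : ∀ x ∈ K, A ∈ 𝓝[dW] x) : ∃ Φ, Pu W dW δ Φ ∧ ∀ x ∈ K, 0 < δ x → Φ x ∉ dW := by
  have := hK.induction_on (p := fun s => ∃ Φ, Pu W dW δ Φ ∧ ∀ x ∈ s, x ∈ dW → 0 < δ x → Φ x ∉ dW)
    ⟨fun x => x, ⟨plOn_id _, fun _ _ _ _ h => h, fun _ h => h, fun _ _ _ => rfl, fun _ _ _ => rfl⟩,
      fun _ h => h.elim⟩ (fun s t h ⟨Φ, a, b⟩ => ⟨Φ, a, fun x hx => b x (h hx)⟩)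
    (fun s t ⟨Φ, a, b⟩ ⟨Ψ, a', b'⟩ => ⟨_, a.comp a', fun x hx hd h e => by
      have e1 := a.bd _ (a'.maps (hW.1 hd)) e
      have e2 := a'.bd x (hW.1 hd) (e1 ▸ e)
      rcases hx with hx | hx
      · exact b x hx hd h (e2 ▸ e)
      · exact b' x hx hd h (e1 ▸ e)⟩) fun x hx => by
      obtain ⟨k, hk⟩ := hW.2 x (hW.1 (hKd hx))
      obtain ⟨Φ, a, b⟩ := push_loc k hk (hKd hx) hδ (hA x hx)
      exact ⟨_, nhdsWithin_mono x (hKd.trans hW.1) b, Φ, a, fun _ h => h⟩
  exact this.imp fun Φ h => ⟨h.1, fun x hx => h.2 x hx (hKd hx)⟩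

end Crest.Agent.X212.Deh83
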